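import Vale.Agent.P235.Elim

/-!
Graphs of bounded depth for alternating apices and one-sums.
-/

namespace Vale.Agent.P235

open Finset SimpleGraph

universe u

variable {V : Type u}

/-- The edges at `c` can be split off: no edge avoiding `c` crosses `S`, and both sides have a
vertex other than `c` with an edge. -/
def Separable (H : SimpleGraph V) : Prop :=
  ∃ (c : V) (S : Set V), (∀ x y, H.Adj x y → x ≠ c → y ≠ c → (x ∈ S ↔ y ∈ S)) ∧
    (∃ x y, H.Adj x y ∧ x ∈ S ∧ x ≠ c) ∧ ∃ x y, H.Adj x y ∧ x ∉ S ∧ x ≠ c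

/-- The graph with the edges at `v` removed. -/
def without (H : SimpleGraph V) (v : V) : SimpleGraph V where
  Adj x y := H.Adj x y ∧ x ≠ v ∧ y ≠ v
  symm := ⟨fun _ _ e => ⟨e.1.symm, e.2.2, e.2.1⟩⟩
  loopless := ⟨fun _ e => e.1.ne rfl⟩

/-- Depth zero: forests. Depth `m + 1`: every subgraph that is not separable has a vertex whose
removal leaves depth `m`. -/
def BlockDepth : ℕ → SimpleGraph V → Prop
  | 0, H => H.IsAcyclic
  | m + 1, H => ∀ B ≤ H, ¬ Separable B → ∃ v, BlockDepth m (without B v)

theorem BlockDepth.mono {m : ℕ} {H H' : SimpleGraph V} (hle : H' ≤ H) (h : BlockDepth m H) :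
    BlockDepth m H' := by
  cases m with
  | zero => exact IsAcyclic.anti hle h
  | succ m => exact fun B hB hsep => h B (hB.trans hle) hsep

theorem wlen_le_of_le [Fintype V] {H H' : SimpleGraph V} (hle : H' ≤ H) {l : V → V → ℝ}
    {ι : Type u} [Fintype ι] {F : V → ι → ℝ} {x y : V}
    (h : ∃ p : H'.Walk x y, wlen l p ≤ ∑ k, |F x k - F y k|) :
    ∃ p : H.Walk x y, wlen l p ≤ ∑ k, |F x k - F y k| := by
  obtain ⟨p, hp⟩ := h
  exact ⟨p.mapLe hle, by rwa [wlen_mapLe]⟩

theorem reachable_map {H H' : SimpleGraph V} (π : V → V)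
    (h : ∀ x y, H.Adj x y → π x = π y ∨ H'.Adj (π x) (π y)) {x y : V} (hxy : H.Reachable x y) :
    H'.Reachable (π x) (π y) := by
  obtain ⟨p⟩ := hxy
  induction p with
  | nil => exact Reachable.refl _
  | cons e p ih =>
    rcases h _ _ e with h1 | h1
    · exact h1 ▸ ih
    · exact h1.reachable.trans ih

theorem apex_step [Fintype V] (H : SimpleGraph V) (l : V → V → ℝ)
    (hl : ∀ u v, H.Adj u v → 0 ≤ l u v) (hs : ∀ u v, H.Adj u v → l u v = l v u) (a : V)
    {ι : Type u} [Fintype ι] (F : V → ι → ℝ) {C : ℝ} (hC : 1 ≤ C)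
    (hup : ∀ x y, (without H a).Adj x y → ∑ k, |F x k - F y k| ≤ C * l x y)
    (hlow : ∀ x y, (without H a).Reachable x y →
      ∃ p : (without H a).Walk x y, wlen l p ≤ ∑ k, |F x k - F y k|) :
    ∃ (κ : Type u) (_ : Fintype κ) (f : V → κ → ℝ),
      (∀ x y, H.Adj x y → ∑ k, |f x k - f y k| ≤ 289 * C * l x y) ∧
      ∀ x y, H.Reachable x y → ∃ p : H.Walk x y, wlen l p ≤ ∑ k, |f x k - f y k| := by
  classical
  set W := without H a
  have hWH : W ≤ H := fun _ _ e => e.1
  set R : ℝ := ∑ q : V × V, |l q.1 q.2| with hR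
  have hR0 : 0 ≤ R := sum_nonneg fun _ _ => abs_nonneg _
  let r : V → ℝ := fun x =>
    if hx : H.Reachable a x then wlen l (exists_shortest hl hx).choose else R
  have rpos : ∀ {x}, H.Reachable a x →
      (∃ p : H.Walk a x, wlen l p = r x) ∧ (∀ p : H.Walk a x, r x ≤ wlen l p) ∧ r x ≤ R := by
    intro x hx
    have hrx : r x = wlen l (exists_shortest hl hx).choose := dif_pos hx
    have hc := (exists_shortest hl hx).choose_spec
    exact ⟨⟨_, hrx.symm⟩, fun p => hrx.trans_le (hc.2 p), hrx.trans_le hc.1⟩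
  have rneg : ∀ {x}, ¬ H.Reachable a x → r x = R := fun hx => dif_neg hx
  have rnn : ∀ x, 0 ≤ r x := fun x => by
    by_cases hx : H.Reachable a x
    · obtain ⟨p, hp⟩ := (rpos hx).1
      rw [← hp]; exact wlen_nonneg hl p
    · rw [rneg hx]; exact hR0
  have rle : ∀ x, r x ≤ R := fun x => by
    by_cases hx : H.Reachable a x
    · exact (rpos hx).2.2
    · exact (rneg hx).le
  have rzero : r a = 0 :=
    le_antisymm (((rpos (Reachable.refl a)).2.1 Walk.nil).trans (by simp [wlen])) (rnn a)
  have rlip : ∀ u v, H.Adj u v → |r u - r v| ≤ l u v := by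
    intro u v huv
    by_cases hx : H.Reachable a u
    · obtain ⟨⟨p, hp⟩, hpu, -⟩ := rpos hx
      obtain ⟨⟨q, hq⟩, hqv, -⟩ := rpos (hx.trans huv.reachable)
      have h1 := hqv (p.concat huv)
      have h2 := hpu (q.concat huv.symm)
      rw [wlen_concat, hp] at h1
      rw [wlen_concat, hq, ← hs u v huv] at h2
      rw [abs_sub_le_iff]
      constructor <;> linarith
    · have hv : ¬ H.Reachable a v := fun hav => hx (hav.trans huv.symm.reachable)
      rw [rneg hx, rneg hv, sub_self, abs_zero]
      exact hl u v huv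
  let F' : V → ι ⊕ V → ℝ := fun x => Sum.elim (F x)
    fun z => if (W.connectedComponentMk x).out = z then R else 0
  have hF' : ∀ x y, ∑ k, |F' x k - F' y k| = (∑ k, |F x k - F y k|) +
      if W.Reachable x y then 0 else 2 * R := by
    intro x y
    rw [Fintype.sum_sum_type]
    simp only [F', Sum.elim_inl, Sum.elim_inr]
    congr 1
    by_cases hxy : W.Reachable x y
    · rw [if_pos hxy]
      refine sum_eq_zero fun z _ => ?_
      rw [ConnectedComponent.eq.2 hxy, sub_self, abs_zero]
    · have hne : (W.connectedComponentMk x).out ≠ (W.connectedComponentMk y).out := fun e =>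
        hxy (ConnectedComponent.eq.1 (by
          have h1 := congrArg W.connectedComponentMk e
          exact ((Quot.out_eq _).symm.trans h1).trans (Quot.out_eq _)))
      rw [if_neg hxy, ← sum_subset (subset_univ {(W.connectedComponentMk x).out,
        (W.connectedComponentMk y).out}) fun z _ hz => ?_]
      · rw [sum_pair hne]
        simp [hne, hne.symm, abs_of_nonneg hR0]
        ring
      · simp only [mem_insert, mem_singleton, not_or] at hz
        simp [Ne.symm hz.1, Ne.symm hz.2]
  obtain ⟨κ, _, g, hg⟩ := exists_scales F' r rnn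
  let f : V → PUnit.{u + 1} ⊕ κ → ℝ := fun x => Sum.elim (fun _ => r x) fun k => 24 * g x k
  have hf : ∀ x y, ∑ k, |f x k - f y k| = |r x - r y| + 24 * ∑ k, |g x k - g y k| := by
    intro x y
    rw [Fintype.sum_sum_type, mul_sum]
    simp [f, ← mul_sub, abs_mul]
  refine ⟨PUnit.{u + 1} ⊕ κ, inferInstance, f, fun x y hxy => ?_, fun x y hxy => ?_⟩
  · rw [hf]
    have hl0 := hl x y hxy
    have hr := rlip x y hxy
    have hCl : l x y ≤ C * l x y := le_mul_of_one_le_left hl0 hC
    by_cases hy : y = a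
    · have := (hg x y).2.2 (by rw [hy, rzero])
      linarith
    by_cases hx : x = a
    · have := (hg y x).2.2 (by rw [hx, rzero])
      simp only [abs_sub_comm (g x _)]
      rw [abs_sub_comm (r y)] at this
      linarith
    have he : W.Adj x y := ⟨hxy, hx, hy⟩
    have := (hg x y).2.1
    rw [hF', if_pos he.reachable, add_zero] at this
    linarith [hup x y he]
  · simp only [hf]
    have hmin := (hg x y).1
    rw [hF'] at hmin
    set D := ∑ k, |F x k - F y k|
    have hD : 0 ≤ D := sum_nonneg fun _ _ => abs_nonneg _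
    have hg0 : 0 ≤ ∑ k, |g x k - g y k| := sum_nonneg fun _ _ => abs_nonneg _
    have hr0 := abs_nonneg (r x - r y)
    by_cases hcase : W.Reachable x y ∧ D ≤ r x
    · obtain ⟨p, hp⟩ := hlow x y hcase.1
      refine ⟨p.mapLe hWH, ?_⟩
      rw [wlen_mapLe]
      rw [if_pos hcase.1, add_zero, min_eq_left hcase.2] at hmin
      linarith
    have hrx : r x ≤ 12 * ∑ k, |g x k - g y k| := by
      refine le_trans (le_of_eq (min_eq_right ?_).symm) hmin
      split_ifs with hreach
      · linarith [not_le.1 fun hle => hcase ⟨hreach, hle⟩]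
      · linarith [rle x]
    by_cases hx : H.Reachable a x
    · obtain ⟨p, hp⟩ := (rpos hx).1
      obtain ⟨q, hq⟩ := (rpos (hx.trans hxy)).1
      refine ⟨p.reverse.append q, ?_⟩
      rw [wlen_append, wlen_reverse hs, hp, hq]
      linarith [neg_abs_le (r x - r y)]
    · obtain ⟨p, hp, -⟩ := exists_shortest hl hxy
      refine ⟨p, ?_⟩
      rw [rneg hx] at hrx
      linarith

theorem blockDepth_embedding [Fintype V] (l : V → V → ℝ) : ∀ (m : ℕ) (H : SimpleGraph V),
    BlockDepth m H → (∀ u v, H.Adj u v → 0 ≤ l u v) → (∀ u v, H.Adj u v → l u v = l v u) →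
    ∃ (ι : Type u) (_ : Fintype ι) (F : V → ι → ℝ),
      (∀ a b, H.Adj a b → ∑ k, |F a k - F b k| ≤ (289 : ℝ) ^ m * l a b) ∧
      ∀ x y, H.Reachable x y → ∃ p : H.Walk x y, wlen l p ≤ ∑ k, |F x k - F y k| := by
  intro m
  induction m with
  | zero =>
    intro H hH hl hs
    obtain ⟨ι, hι, F, h1, h2⟩ := forest_base hH hl hs
    exact ⟨ι, hι, F, fun a b e => (h1 a b e).trans_eq (by rw [pow_zero, one_mul]), h2⟩
  | succ m ihm =>
    intro H
    induction H using WellFoundedLT.induction with
    | _ H ih =>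
      intro hH hl hs
      classical
      by_cases hsep : Separable H
      · obtain ⟨c, S, hcross, ⟨x₁, y₁, he₁, hx₁, hx₁c⟩, ⟨x₂, y₂, he₂, hx₂, hx₂c⟩⟩ := hsep
        let A : V → Prop := fun x => x ∈ S ∧ x ≠ c
        let H₁ : SimpleGraph V :=
          { Adj := fun x y => H.Adj x y ∧ (A x ∨ A y)
            symm := ⟨fun _ _ e => ⟨e.1.symm, e.2.symm⟩⟩
            loopless := ⟨fun _ e => e.1.ne rfl⟩ }
        let H₂ : SimpleGraph V :=
          { Adj := fun x y => H.Adj x y ∧ ¬ A x ∧ ¬ A y
            symm := ⟨fun _ _ e => ⟨e.1.symm, e.2.2, e.2.1⟩⟩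
            loopless := ⟨fun _ e => e.1.ne rfl⟩ }
        have hle₁ : H₁ ≤ H := fun _ _ e => e.1
        have hle₂ : H₂ ≤ H := fun _ _ e => e.1
        have hA : ∀ x y, H.Adj x y → A x → ¬ A y → y = c := fun x y e hx hy => by
          by_contra hyc
          exact hy ⟨(hcross x y e hx.2 hyc).1 hx.1, hyc⟩
        have hlt₁ : H₁ < H := lt_of_le_of_ne hle₁ fun e => by
          have h2 : H₁.Adj x₂ y₂ := by rw [e]; exact he₂
          rcases h2.2 with h3 | h3
          · exact hx₂ h3.1
          · exact hx₂c (hA y₂ x₂ he₂.symm h3 fun h4 => hx₂ h4.1)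
        have hlt₂ : H₂ < H := lt_of_le_of_ne hle₂ fun e => by
          have h1 : H₂.Adj x₁ y₁ := by rw [e]; exact he₁
          exact h1.2.1 ⟨hx₁, hx₁c⟩
        obtain ⟨ι₁, _, F₁, u₁, w₁⟩ := ih H₁ hlt₁ (hH.mono hle₁) (fun u v e => hl u v e.1)
          (fun u v e => hs u v e.1)
        obtain ⟨ι₂, _, F₂, u₂, w₂⟩ := ih H₂ hlt₂ (hH.mono hle₂) (fun u v e => hl u v e.1)
          (fun u v e => hs u v e.1)
        let π₁ : V → V := fun x => if A x then x else c
        let π₂ : V → V := fun x => if A x then c else x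
        let F : V → ι₁ ⊕ ι₂ → ℝ := fun x => Sum.elim (F₁ (π₁ x)) (F₂ (π₂ x))
        have hF : ∀ x y, ∑ k, |F x k - F y k| = (∑ k, |F₁ (π₁ x) k - F₁ (π₁ y) k|) +
            ∑ k, |F₂ (π₂ x) k - F₂ (π₂ y) k| := fun x y => by
          rw [Fintype.sum_sum_type]
          simp [F]
        have hedge : ∀ x y, H.Adj x y →
            (H₁.Adj x y ∧ π₁ x = x ∧ π₁ y = y ∧ π₂ x = π₂ y) ∨
            (H₂.Adj x y ∧ π₂ x = x ∧ π₂ y = y ∧ π₁ x = π₁ y) := by
          intro x y e
          by_cases hx : A x <;> by_cases hy : A y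
          · exact Or.inl ⟨⟨e, Or.inl hx⟩, if_pos hx, if_pos hy, by simp [π₂, hx, hy]⟩
          · have := hA x y e hx hy
            exact Or.inl ⟨⟨e, Or.inl hx⟩, if_pos hx, by simp [π₁, hy, this],
              by simp [π₂, hx, hy, this]⟩
          · have := hA y x e.symm hy hx
            exact Or.inl ⟨⟨e, Or.inr hy⟩, by simp [π₁, hx, this], if_pos hy,
              by simp [π₂, hx, hy, this]⟩
          · exact Or.inr ⟨⟨e, hx, hy⟩, if_neg hx, if_neg hy, by simp [π₁, hx, hy]⟩
        refine ⟨ι₁ ⊕ ι₂, inferInstance, F, fun x y e => ?_, fun x y hxy => ?_⟩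
        · rw [hF]
          rcases hedge x y e with ⟨h1, h2, h3, h4⟩ | ⟨h1, h2, h3, h4⟩
          · rw [h2, h3, h4]
            simpa using u₁ x y h1
          · rw [h2, h3, h4]
            simpa using u₂ x y h1
        · obtain ⟨p, hp⟩ := wlen_le_of_le hle₁ (w₁ _ _ (reachable_map π₁ (fun x y e => by
            rcases hedge x y e with ⟨h1, h2, h3, -⟩ | ⟨-, -, -, h4⟩
            · exact Or.inr (by rw [h2, h3]; exact h1)
            · exact Or.inl h4) hxy))
          obtain ⟨q, hq⟩ := wlen_le_of_le hle₂ (w₂ _ _ (reachable_map π₂ (fun x y e => by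
            rcases hedge x y e with ⟨-, -, -, h4⟩ | ⟨h1, h2, h3, -⟩
            · exact Or.inl h4
            · exact Or.inr (by rw [h2, h3]; exact h1)) hxy))
          rw [hF]
          have hp0 := wlen_nonneg hl p
          have hq0 := wlen_nonneg hl q
          by_cases hx : A x <;> by_cases hy : A y
          · have e1 : π₁ x = x := if_pos hx
            have e2 : π₁ y = y := if_pos hy
            refine ⟨p.copy e1 e2, ?_⟩
            have e3 : wlen l (p.copy e1 e2) = wlen l p := by simp [wlen]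
            linarith
          · have e1 : π₁ x = x := if_pos hx
            have e2 : π₁ y = π₂ x := by simp [π₁, π₂, hx, hy]
            have e4 : π₂ y = y := if_neg hy
            refine ⟨(p.copy e1 e2).append (q.copy rfl e4), ?_⟩
            rw [wlen_append]
            have e3 : wlen l (p.copy e1 e2) = wlen l p := by simp [wlen]
            have e5 : wlen l (q.copy rfl e4) = wlen l q := by simp [wlen]
            linarith
          · have e1 : π₂ x = x := if_neg hx
            have e2 : π₂ y = π₁ x := by simp [π₁, π₂, hx, hy]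
            have e4 : π₁ y = y := if_pos hy
            refine ⟨(q.copy e1 e2).append (p.copy rfl e4), ?_⟩
            rw [wlen_append]
            have e3 : wlen l (q.copy e1 e2) = wlen l q := by simp [wlen]
            have e5 : wlen l (p.copy rfl e4) = wlen l p := by simp [wlen]
            linarith
          · have e1 : π₂ x = x := if_neg hx
            have e2 : π₂ y = y := if_neg hy
            refine ⟨q.copy e1 e2, ?_⟩
            have e3 : wlen l (q.copy e1 e2) = wlen l q := by simp [wlen]
            linarith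
      · obtain ⟨v, hv⟩ := hH H le_rfl hsep
        obtain ⟨ι, hι, F, h1, h2⟩ := ihm (without H v) hv (fun u w e => hl u w e.1)
          (fun u w e => hs u w e.1)
        obtain ⟨κ, hκ, f, h3, h4⟩ := apex_step H l hl hs v F
          (one_le_pow₀ (by norm_num : (1 : ℝ) ≤ 289)) h1 h2
        exact ⟨κ, hκ, f, fun a b e => (h3 a b e).trans_eq (by rw [pow_succ]; ring), h4⟩

end Vale.Agent.P235
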