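import Mathlib

/-!
Rooting a forest: every edge joins a vertex to its parent, and depths add up.
-/

namespace Vale.Agent.P235

open SimpleGraph

variable {V : Type*}

/-- The length of a walk. -/
def wlen {G : SimpleGraph V} (l : V → V → ℝ) {u v : V} (p : G.Walk u v) : ℝ :=
  (p.darts.map fun e => l e.fst e.snd).sum

theorem wlen_concat {G : SimpleGraph V} (l : V → V → ℝ) {u v w : V} (p : G.Walk u v)
    (h : G.Adj v w) : wlen l (p.concat h) = wlen l p + l v w := by
  simp [wlen, Walk.darts_concat]

theorem exists_rooting {H : SimpleGraph V} (hH : H.IsAcyclic) (l : V → V → ℝ) :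
    ∃ (n : V → ℕ) (par : V → V) (D : V → ℝ),
      (∀ x, 0 < n x → H.Adj (par x) x ∧ n (par x) + 1 = n x ∧ D x = D (par x) + l (par x) x) ∧
      ∀ x y, H.Adj x y → (0 < n y ∧ par y = x) ∨ (0 < n x ∧ par x = y) := by
  classical
  let root : V → V := fun x => (H.connectedComponentMk x).out
  have hreach : ∀ x, H.Reachable (root x) x := fun x =>
    ConnectedComponent.exact (Quot.out_eq (H.connectedComponentMk x))
  let P : ∀ x, H.Path (root x) x := fun x => (hreach x).some.toPath
  have hroot : ∀ x y, H.Adj x y → root x = root y := fun x y h => by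
    show (H.connectedComponentMk x).out = (H.connectedComponentMk y).out
    rw [ConnectedComponent.eq.2 h.reachable]
  have huniq : ∀ x (r : V) (q : H.Walk r x), q.IsPath → r = root x →
      q.length = (P x).1.length ∧ q.penultimate = (P x).1.penultimate ∧
        wlen l q = wlen l (P x).1 := by
    rintro x r q hq rfl
    have : (⟨q, hq⟩ : H.Path (root x) x) = P x := hH.path_unique _ _
    rw [← this]
    exact ⟨rfl, rfl, rfl⟩
  refine ⟨fun x => (P x).1.length, fun x => (P x).1.penultimate, fun x => wlen l (P x).1,
    fun x hx => ?_, fun x y hxy => ?_⟩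
  · have hnil : ¬ (P x).1.Nil := by
      rw [← Walk.length_eq_zero_iff]
      exact Nat.pos_iff_ne_zero.1 hx
    have hadj := Walk.adj_penultimate hnil
    obtain ⟨h1, -, h3⟩ := huniq (P x).1.penultimate (root x) (P x).1.dropLast
      ((P x).2.dropLast) (hroot _ _ hadj).symm
    refine ⟨hadj, ?_, ?_⟩
    · show (P _).1.length + 1 = (P x).1.length
      rw [← h1]
      have := congrArg Walk.length ((P x).1.concat_dropLast hadj)
      rw [Walk.length_concat] at this
      exact this
    · show wlen l (P x).1 = wlen l (P _).1 + l _ x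
      rw [← h3]
      rw [← wlen_concat l _ hadj, (P x).1.concat_dropLast hadj]
  · have step : ∀ a b, H.Adj a b → b ∉ (P a).1.support →
        0 < (P b).1.length ∧ (P b).1.penultimate = a := by
      intro a b hab hb
      obtain ⟨h1, h2, -⟩ := huniq b (root a) ((P a).1.concat hab)
        ((P a).2.concat hb hab) (hroot a b hab)
      rw [Walk.length_concat] at h1
      rw [Walk.penultimate_concat] at h2
      exact ⟨by omega, h2.symm⟩
    by_cases hy : y ∈ (P x).1.support
    · refine Or.inr (step y x hxy.symm fun hx => ?_)
      obtain ⟨h1, -, -⟩ := huniq y (root x) ((P x).1.takeUntil y hy) ((P x).2.takeUntil hy)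
        (hroot x y hxy)
      obtain ⟨h2, -, -⟩ := huniq x (root y) ((P y).1.takeUntil x hx) ((P y).2.takeUntil hx)
        (hroot x y hxy).symm
      have h3 := Walk.length_takeUntil_lt_length hy hxy.ne'
      have h4 := Walk.length_takeUntil_lt_length hx hxy.ne
      omega
    · exact Or.inl (step x y hxy hy)

end Vale.Agent.P235
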