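import Vale.Agent.P235.Scales
import Vale.Agent.P235.Forest

/-!
Graphs of bounded elimination distance to forests: an embedding into a finite-dimensional l1.
-/

namespace Vale.Agent.P235

open Finset SimpleGraph

universe u

variable {V : Type u}

/-- The edges among vertices of height at most `i`. -/
def lev (G : SimpleGraph V) (h : V → ℕ) (i : ℕ) : SimpleGraph V where
  Adj x y := G.Adj x y ∧ h x ≤ i ∧ h y ≤ i
  symm := ⟨fun _ _ e => ⟨e.1.symm, e.2.2, e.2.1⟩⟩
  loopless := ⟨fun _ e => e.1.ne rfl⟩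

theorem lev_le (G : SimpleGraph V) (h : V → ℕ) (i : ℕ) : lev G h i ≤ G := fun _ _ e => e.1

theorem lev_mono (G : SimpleGraph V) (h : V → ℕ) (i : ℕ) : lev G h i ≤ lev G h (i + 1) :=
  fun _ _ e => ⟨e.1, e.2.1.trans i.le_succ, e.2.2.trans i.le_succ⟩

theorem lev_support {G : SimpleGraph V} {h : V → ℕ} {i : ℕ} {x y : V}
    (p : (lev G h i).Walk x y) (hx : h x ≤ i) : ∀ z ∈ p.support, h z ≤ i := by
  induction p with
  | nil => intro z hz; rw [Walk.support_nil, List.mem_singleton] at hz; rw [hz]; exact hx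
  | cons e p ih =>
    intro z hz
    rw [Walk.support_cons, List.mem_cons] at hz
    rcases hz with rfl | hz
    exacts [hx, ih e.2.2 z hz]

theorem wlen_mapLe {H H' : SimpleGraph V} (hle : H ≤ H') (l : V → V → ℝ) {x y : V}
    (p : H.Walk x y) : wlen l (p.mapLe hle) = wlen l p := by
  induction p with
  | nil => rfl
  | cons e p ih => simp_all [wlen]

theorem wlen_nonneg {H : SimpleGraph V} {l : V → V → ℝ} (hl : ∀ u v, H.Adj u v → 0 ≤ l u v)
    {x y : V} (p : H.Walk x y) : 0 ≤ wlen l p :=
  List.sum_nonneg fun t ht => by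
    obtain ⟨e, _, rfl⟩ := List.mem_map.1 ht
    exact hl _ _ e.adj

theorem wlen_append {H : SimpleGraph V} (l : V → V → ℝ) {x y z : V} (p : H.Walk x y)
    (q : H.Walk y z) : wlen l (p.append q) = wlen l p + wlen l q := by
  simp [wlen]

theorem wlen_reverse {H : SimpleGraph V} {l : V → V → ℝ}
    (hs : ∀ u v, H.Adj u v → l u v = l v u) {x y : V} (p : H.Walk x y) :
    wlen l p.reverse = wlen l p := by
  induction p with
  | nil => rfl
  | @cons a b c e p ih =>
    rw [Walk.reverse_cons, wlen_append, ih]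
    simp [wlen, hs a b e]
    ring

theorem wlen_bypass [DecidableEq V] {H : SimpleGraph V} {l : V → V → ℝ}
    (hl : ∀ u v, H.Adj u v → 0 ≤ l u v) {x y : V} (p : H.Walk x y) :
    wlen l p.bypass ≤ wlen l p := by
  induction p with
  | nil => exact le_rfl
  | @cons a b c e p ih =>
    have h1 : ∀ {q : H.Walk b c}, wlen l (Walk.cons e q) = l a b + wlen l q := by
      intro q; simp [wlen]
    rw [h1]
    simp only [Walk.bypass]
    split_ifs with hs
    · have h2 := wlen_append l (p.bypass.takeUntil a hs) (p.bypass.dropUntil a hs)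
      rw [Walk.take_spec] at h2
      have := wlen_nonneg hl (p.bypass.takeUntil a hs)
      linarith [hl a b e]
    · rw [h1]; linarith

theorem wlen_path_le [Fintype V] {H : SimpleGraph V} {l : V → V → ℝ} {x y : V}
    (p : H.Walk x y) (hp : p.IsPath) : wlen l p ≤ ∑ q : V × V, |l q.1 q.2| := by
  classical
  have hnd : (p.darts.map fun e => e.toProd).Nodup :=
    (Walk.darts_nodup_of_support_nodup hp.support_nodup).map fun a b e => Dart.ext _ _ e
  calc wlen l p = ((p.darts.map fun e => e.toProd).map fun q => l q.1 q.2).sum := by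
        simp [wlen, List.map_map, Function.comp_def]
    _ = ∑ q ∈ (p.darts.map fun e => e.toProd).toFinset, l q.1 q.2 :=
        (List.sum_toFinset _ hnd).symm
    _ ≤ ∑ q ∈ (p.darts.map fun e => e.toProd).toFinset, |l q.1 q.2| :=
        sum_le_sum fun q _ => le_abs_self _
    _ ≤ _ := sum_le_sum_of_subset_of_nonneg (subset_univ _) fun q _ _ => abs_nonneg _

theorem exists_shortest [Fintype V] {H : SimpleGraph V} {l : V → V → ℝ}
    (hl : ∀ u v, H.Adj u v → 0 ≤ l u v) {x y : V} (hxy : H.Reachable x y) :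
    ∃ p : H.Walk x y, wlen l p ≤ ∑ q : V × V, |l q.1 q.2| ∧
      ∀ q : H.Walk x y, wlen l p ≤ wlen l q := by
  classical
  obtain ⟨w⟩ := hxy
  obtain ⟨p, -, hmin⟩ := (univ : Finset (H.Path x y)).exists_min_image (fun p => wlen l p.1)
    ⟨w.toPath, mem_univ _⟩
  exact ⟨p.1, wlen_path_le _ p.2, fun q =>
    (hmin q.toPath (mem_univ _)).trans (wlen_bypass hl q)⟩

theorem forest_base [Fintype V] {H : SimpleGraph V} (hH : H.IsAcyclic) {l : V → V → ℝ}
    (hl : ∀ u v, H.Adj u v → 0 ≤ l u v) (hs : ∀ u v, H.Adj u v → l u v = l v u) :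
    ∃ (ι : Type u) (_ : Fintype ι) (F : V → ι → ℝ),
      (∀ a b, H.Adj a b → ∑ i, |F a i - F b i| ≤ l a b) ∧
      ∀ x y, H.Reachable x y → ∃ p : H.Walk x y, wlen l p ≤ ∑ i, |F x i - F y i| := by
  classical
  obtain ⟨n, par, D, hpar, hedge⟩ := exists_rooting hH l
  let anc : V → V → Prop := fun x z => ∃ k, par^[k] x = z ∧ 0 < n z ∧ n x = n z + k
  let w : V → ℝ := fun z => l (par z) z
  let F : V → V → ℝ := fun x z => if anc x z then w z else 0
  have hw : ∀ x, 0 < n x → 0 ≤ w x := fun x hx => hl _ _ (hpar x hx).1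
  have hstep : ∀ c z, 0 < n c → (anc c z ↔ z = c ∨ anc (par c) z) := by
    intro c z hc
    have hn := (hpar c hc).2.1
    constructor
    · rintro ⟨k, hk, hz, hnk⟩
      cases k with
      | zero => exact Or.inl hk.symm
      | succ k => exact Or.inr ⟨k, by rw [← hk, Function.iterate_succ_apply], hz, by omega⟩
    · rintro (rfl | ⟨k, hk, hz, hnk⟩)
      · exact ⟨0, rfl, hc, rfl⟩
      · exact ⟨k + 1, by rw [Function.iterate_succ_apply, hk], hz, by omega⟩
  have hself : ∀ x z, n x ≤ n z → anc x z → x = z := by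
    rintro x z hle ⟨k, hk, -, hnk⟩
    obtain rfl : k = 0 := by omega
    exact hk
  have hF : ∀ c z, 0 < n c → F c z = F (par c) z + if z = c then w c else 0 := by
    intro c z hc
    by_cases hz : z = c
    · subst hz
      have h1 : ¬ anc (par z) z := fun ha => by
        have := (hpar z hc).2.1
        have e := hself (par z) z (by omega) ha
        rw [e] at this; omega
      simp [F, h1, (hstep z z hc).2 (Or.inl rfl)]
    · by_cases ha : anc (par c) z
      · simp [F, ha, (hstep c z hc).2 (Or.inr ha), hz]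
      · have h1 : ¬ anc c z := fun h => ((hstep c z hc).1 h).elim hz ha
        simp [F, ha, h1, hz]
  have hchild : ∀ c, 0 < n c → ∑ z, |F c z - F (par c) z| = w c := by
    intro c hc
    simp only [hF c _ hc, add_sub_cancel_left, apply_ite abs, abs_zero, sum_ite_eq', mem_univ,
      if_true, abs_of_nonneg (hw c hc)]
  refine ⟨V, inferInstance, F, fun a b hab => ?_, ?_⟩
  · rcases hedge a b hab with ⟨hn, hp⟩ | ⟨hn, hp⟩
    · have := hchild b hn
      rw [hp] at this
      simp only [abs_sub_comm (F a _)]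
      exact this.le.trans (le_of_eq (by simp [w, hp]))
    · have := hchild a hn
      rw [hp] at this
      exact this.le.trans (le_of_eq (by simp [w, hp, hs a b hab]))
  · let root : V → V := fun x => par^[n x] x
    have hroot : ∀ c, 0 < n c → root c = root (par c) := fun c hc => by
      show par^[n c] c = par^[n (par c)] (par c)
      rw [← (hpar c hc).2.1, Function.iterate_succ_apply]
    have hrr : ∀ {x y} (p : H.Walk x y), root x = root y := by
      intro x y p
      induction p with
      | nil => rfl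
      | @cons a b c e p ih =>
        rcases hedge a b e with ⟨hn, hp⟩ | ⟨hn, hp⟩
        · rw [← ih, hroot b hn, hp]
        · rw [← ih, hroot a hn, hp]
    suffices hmain : ∀ N, ∀ x y, n x + n y = N → H.Reachable x y →
        ∃ p : H.Walk x y, wlen l p ≤ ∑ i, |F x i - F y i| from
      fun x y h => hmain _ x y rfl h
    intro N
    induction N using Nat.strong_induction_on with
    | _ N ih =>
      intro x y hN hxy
      wlog hle : n y ≤ n x generalizing x y
      · obtain ⟨p, hp⟩ := this y x (by omega) hxy.symm (by omega)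
        refine ⟨p.reverse, ?_⟩
        rw [wlen_reverse hs]
        simpa only [abs_sub_comm] using hp
      rcases eq_or_ne x y with rfl | hne
      · exact ⟨Walk.nil, by simp [wlen]⟩
      obtain ⟨p⟩ := hxy
      rcases Nat.eq_zero_or_pos (n x) with h0 | h0
      · have := hrr p
        simp only [root, h0, show n y = 0 by omega, Function.iterate_zero, id_eq] at this
        exact absurd this hne
      obtain ⟨hadj, hn, -⟩ := hpar x h0
      obtain ⟨q, hq⟩ := ih (n (par x) + n y) (by omega) (par x) y rfl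
        (hadj.reachable.trans ⟨p⟩)
      refine ⟨Walk.cons hadj.symm q, ?_⟩
      have hy : ¬ anc y x := fun ha => hne (hself y x hle ha).symm
      have hpx : ¬ anc (par x) x := fun ha => by
        have e := hself (par x) x (by omega) ha
        rw [e] at hn; omega
      have hsum : ∑ z, |F x z - F y z| = w x + ∑ z, |F (par x) z - F y z| := by
        rw [← add_sum_erase _ _ (mem_univ x), ← add_sum_erase _ _ (mem_univ x) (a := x)]
        · simp only [hF x _ h0, if_pos, F, if_neg hy, if_neg hpx]
          simp only [zero_add, sub_zero, sub_self, abs_zero, abs_of_nonneg (hw x h0)]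
          congr 1
          refine sum_congr rfl fun z hz => ?_
          rw [if_neg (mem_erase.1 hz).1, add_zero]
      rw [hsum]
      have : wlen l (Walk.cons hadj.symm q) = l x (par x) + wlen l q := by simp [wlen]
      rw [this, hs _ _ hadj.symm]
      simp only [w]
      linarith

theorem elim_step [Fintype V] (G : SimpleGraph V) (l : V → V → ℝ)
    (hl : ∀ u v, G.Adj u v → 0 ≤ l u v) (hs : ∀ u v, G.Adj u v → l u v = l v u) (h : V → ℕ)
    (i : ℕ) (hsep : ∀ a b, a ≠ b → h a = i + 1 → h b = i + 1 →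
      ∀ p : G.Walk a b, ∃ x ∈ p.support, i + 1 < h x)
    {ι : Type u} [Fintype ι] (F : V → ι → ℝ) {C : ℝ} (hC : 1 ≤ C)
    (hup : ∀ a b, (lev G h i).Adj a b → ∑ k, |F a k - F b k| ≤ C * l a b)
    (hlow : ∀ x y, (lev G h i).Reachable x y →
      ∃ p : (lev G h i).Walk x y, wlen l p ≤ ∑ k, |F x k - F y k|) :
    ∃ (κ : Type u) (_ : Fintype κ) (f : V → κ → ℝ),
      (∀ a b, (lev G h (i + 1)).Adj a b → ∑ k, |f a k - f b k| ≤ 289 * C * l a b) ∧
      ∀ x y, (lev G h (i + 1)).Reachable x y →
        ∃ p : (lev G h (i + 1)).Walk x y, wlen l p ≤ ∑ k, |f x k - f y k| := by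
  classical
  set H := lev G h (i + 1)
  set R : ℝ := ∑ q : V × V, |l q.1 q.2| with hR
  have hR0 : 0 ≤ R := sum_nonneg fun _ _ => abs_nonneg _
  have hl' : ∀ u v, H.Adj u v → 0 ≤ l u v := fun u v e => hl u v e.1
  have hs' : ∀ u v, H.Adj u v → l u v = l v u := fun u v e => hs u v e.1
  have huniq : ∀ a b, h a = i + 1 → h b = i + 1 → H.Reachable a b → a = b := by
    intro a b ha hb hab
    by_contra hne
    obtain ⟨p⟩ := hab
    obtain ⟨x, hx, hx'⟩ := hsep a b hne ha hb (p.mapLe (lev_le G h (i + 1)))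
    rw [Walk.support_mapLe_eq_support] at hx
    have := lev_support p ha.le x hx
    omega
  let r : V → ℝ := fun x =>
    if hx : ∃ a, h a = i + 1 ∧ H.Reachable a x then
      wlen l (exists_shortest hl' hx.choose_spec.2).choose else R
  have rpos : ∀ {a x}, h a = i + 1 → H.Reachable a x →
      (∃ p : H.Walk a x, wlen l p = r x) ∧ (∀ p : H.Walk a x, r x ≤ wlen l p) ∧ r x ≤ R := by
    intro a x ha hax
    have hx : ∃ a, h a = i + 1 ∧ H.Reachable a x := ⟨a, ha, hax⟩
    have e := huniq hx.choose a hx.choose_spec.1 ha (hx.choose_spec.2.trans hax.symm)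
    have hrx : r x = wlen l (exists_shortest hl' hx.choose_spec.2).choose := dif_pos hx
    have hc := (exists_shortest hl' hx.choose_spec.2).choose_spec
    revert hrx hc
    generalize (exists_shortest hl' hx.choose_spec.2).choose = p₀
    revert p₀
    rw [e]
    exact fun p₀ hrx hc => ⟨⟨p₀, hrx.symm⟩, fun p => hrx.trans_le (hc.2 p), hrx.trans_le hc.1⟩
  have rneg : ∀ {x}, (¬ ∃ a, h a = i + 1 ∧ H.Reachable a x) → r x = R := fun hx => dif_neg hx
  have rnn : ∀ x, 0 ≤ r x := fun x => by
    by_cases hx : ∃ a, h a = i + 1 ∧ H.Reachable a x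
    · obtain ⟨a, ha, hax⟩ := hx
      obtain ⟨p, hp⟩ := (rpos ha hax).1
      rw [← hp]; exact wlen_nonneg hl' p
    · rw [rneg hx]; exact hR0
  have rle : ∀ x, r x ≤ R := fun x => by
    by_cases hx : ∃ a, h a = i + 1 ∧ H.Reachable a x
    · obtain ⟨a, ha, hax⟩ := hx
      exact (rpos ha hax).2.2
    · exact (rneg hx).le
  have rzero : ∀ a, h a = i + 1 → r a = 0 := fun a ha =>
    le_antisymm (((rpos ha (Reachable.refl a)).2.1 Walk.nil).trans (by simp [wlen])) (rnn a)
  have rlip : ∀ u v, H.Adj u v → |r u - r v| ≤ l u v := by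
    intro u v huv
    by_cases hx : ∃ a, h a = i + 1 ∧ H.Reachable a u
    · obtain ⟨a, ha, hau⟩ := hx
      obtain ⟨⟨p, hp⟩, hpu, -⟩ := rpos ha hau
      obtain ⟨⟨q, hq⟩, hqv, -⟩ := rpos ha (hau.trans huv.reachable)
      have h1 := hqv (p.concat huv)
      have h2 := hpu (q.concat huv.symm)
      rw [wlen_concat, hp] at h1
      rw [wlen_concat, hq, ← hs' u v huv] at h2
      rw [abs_sub_le_iff]
      constructor <;> linarith
    · have hv : ¬ ∃ a, h a = i + 1 ∧ H.Reachable a v :=
        fun ⟨a, ha, hav⟩ => hx ⟨a, ha, hav.trans huv.symm.reachable⟩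
      rw [rneg hx, rneg hv, sub_self, abs_zero]
      exact hl' u v huv
  let F' : V → ι ⊕ V → ℝ := fun x => Sum.elim (F x)
    fun z => if ((lev G h i).connectedComponentMk x).out = z then R else 0
  have hF' : ∀ x y, ∑ k, |F' x k - F' y k| = (∑ k, |F x k - F y k|) +
      if (lev G h i).Reachable x y then 0 else 2 * R := by
    intro x y
    rw [Fintype.sum_sum_type]
    simp only [F', Sum.elim_inl, Sum.elim_inr]
    congr 1
    by_cases hxy : (lev G h i).Reachable x y
    · rw [if_pos hxy]
      refine sum_eq_zero fun z _ => ?_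
      rw [ConnectedComponent.eq.2 hxy, sub_self, abs_zero]
    · have hne : ((lev G h i).connectedComponentMk x).out ≠
          ((lev G h i).connectedComponentMk y).out := fun e => hxy (ConnectedComponent.eq.1 (by
        have h1 := congrArg (lev G h i).connectedComponentMk e
        exact ((Quot.out_eq _).symm.trans h1).trans (Quot.out_eq _)))
      rw [if_neg hxy, ← sum_subset (subset_univ {((lev G h i).connectedComponentMk x).out,
        ((lev G h i).connectedComponentMk y).out}) fun z _ hz => ?_]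
      · rw [sum_pair hne]
        simp [hne, hne.symm, abs_of_nonneg hR0]
        ring
      · simp only [mem_insert, mem_singleton, not_or] at hz
        simp [Ne.symm hz.1, Ne.symm hz.2]
  obtain ⟨κ, _, g, hg⟩ := exists_scales F' r rnn
  let f : V → PUnit.{u + 1} ⊕ κ → ℝ := fun x => Sum.elim (fun _ => r x) fun k => 24 * g x k
  have hf : ∀ x y, ∑ k, |f x k - f y k| = |r x - r y| + 24 * ∑ k, |g x k - g y k| := by
    intro x y
    rw [Fintype.sum_sum_type, mul_sum]
    simp [f, ← mul_sub, abs_mul]
  refine ⟨PUnit.{u + 1} ⊕ κ, inferInstance, f, fun a b hab => ?_, fun x y hxy => ?_⟩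
  · rw [hf]
    have hl0 := hl' a b hab
    have hr := rlip a b hab
    have hg0 : ∀ u v, 0 ≤ ∑ k, |g u k - g v k| := fun _ _ => sum_nonneg fun _ _ => abs_nonneg _
    have hCl : l a b ≤ C * l a b := le_mul_of_one_le_left hl0 hC
    by_cases hb : h b = i + 1
    · have := (hg a b).2.2 (rzero b hb)
      linarith
    by_cases ha : h a = i + 1
    · have := (hg b a).2.2 (rzero a ha)
      simp only [abs_sub_comm (g a _)]
      rw [abs_sub_comm (r b)] at this
      linarith
    have he : (lev G h i).Adj a b := ⟨hab.1, by have := hab.2.1; omega, by have := hab.2.2; omega⟩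
    have := (hg a b).2.1
    rw [hF', if_pos he.reachable, add_zero] at this
    linarith [hup a b he]
  · simp only [hf]
    have hmin := (hg x y).1
    rw [hF'] at hmin
    set D := ∑ k, |F x k - F y k|
    have hD : 0 ≤ D := sum_nonneg fun _ _ => abs_nonneg _
    have hg0 : 0 ≤ ∑ k, |g x k - g y k| := sum_nonneg fun _ _ => abs_nonneg _
    have hr0 := abs_nonneg (r x - r y)
    by_cases hcase : (lev G h i).Reachable x y ∧ D ≤ r x
    · obtain ⟨p, hp⟩ := hlow x y hcase.1
      refine ⟨p.mapLe (lev_mono G h i), ?_⟩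
      rw [wlen_mapLe]
      rw [if_pos hcase.1, add_zero, min_eq_left hcase.2] at hmin
      linarith
    have hrx : r x ≤ 12 * ∑ k, |g x k - g y k| := by
      refine le_trans (le_of_eq (min_eq_right ?_).symm) hmin
      split_ifs with hreach
      · linarith [not_le.1 fun hle => hcase ⟨hreach, hle⟩]
      · linarith [rle x]
    by_cases hx : ∃ a, h a = i + 1 ∧ H.Reachable a x
    · obtain ⟨a, ha, hax⟩ := hx
      obtain ⟨p, hp⟩ := (rpos ha hax).1
      obtain ⟨q, hq⟩ := (rpos ha (hax.trans hxy)).1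
      refine ⟨p.reverse.append q, ?_⟩
      rw [wlen_append, wlen_reverse hs', hp, hq]
      linarith [neg_abs_le (r x - r y)]
    · obtain ⟨p, hp, -⟩ := exists_shortest hl' hxy
      refine ⟨p, ?_⟩
      rw [rneg hx] at hrx
      linarith

theorem elim_embedding [Fintype V] (G : SimpleGraph V) (l : V → V → ℝ)
    (hl : ∀ u v, G.Adj u v → 0 ≤ l u v) (hs : ∀ u v, G.Adj u v → l u v = l v u) (h : V → ℕ)
    (hcyc : ∀ v (p : G.Walk v v), p.IsCycle → ∃ x ∈ p.support, 0 < h x)
    (hsep : ∀ a b, a ≠ b → 0 < h a → h a = h b → ∀ p : G.Walk a b, ∃ x ∈ p.support, h a < h x) :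
    ∀ i : ℕ, ∃ (ι : Type u) (_ : Fintype ι) (F : V → ι → ℝ),
      (∀ a b, (lev G h i).Adj a b → ∑ k, |F a k - F b k| ≤ (289 : ℝ) ^ i * l a b) ∧
      ∀ x y, (lev G h i).Reachable x y →
        ∃ p : (lev G h i).Walk x y, wlen l p ≤ ∑ k, |F x k - F y k| := by
  intro i
  induction i with
  | zero =>
    have hac : (lev G h 0).IsAcyclic := by
      intro v p hp
      obtain ⟨x, hx, hx'⟩ := hcyc v (p.mapLe (lev_le G h 0)) ((Walk.isCycle_mapLe _).2 hp)
      rw [Walk.support_mapLe_eq_support] at hx
      have hv : h v ≤ 0 := (p.adj_snd hp.not_nil).2.1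
      have := lev_support p hv x hx
      omega
    obtain ⟨ι, hι, F, h1, h2⟩ := forest_base hac (l := l) (fun u v e => hl u v e.1)
      (fun u v e => hs u v e.1)
    exact ⟨ι, hι, F, fun a b e => (h1 a b e).trans_eq (by rw [pow_zero, one_mul]), h2⟩
  | succ i ih =>
    obtain ⟨ι, hι, F, h1, h2⟩ := ih
    obtain ⟨κ, hκ, f, h3, h4⟩ := elim_step G l hl hs h i
      (fun a b hne ha hb p => by
        obtain ⟨x, hx, hx'⟩ := hsep a b hne (by omega) (ha.trans hb.symm) p
        exact ⟨x, hx, ha ▸ hx'⟩)
      F (one_le_pow₀ (by norm_num : (1 : ℝ) ≤ 289)) h1 h2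
    exact ⟨κ, hκ, f, fun a b e => (h3 a b e).trans_eq (by rw [pow_succ]; ring), h4⟩

end Vale.Agent.P235
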