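import Vale.Agent.P235.Levels
import Vale.Agent.P235.Forest

/-!
Graphs with a small feedback vertex set: an embedding into a finite-dimensional l1.
-/

namespace Vale.Agent.P235

open Finset

universe u

variable {V : Type u}

/-- The ancestor of `x` carrying level `b`, with fuel. -/
noncomputable def anc (par : V → V) (D : V → ℝ) : ℕ → V → ℝ → V
  | 0, x, _ => x
  | m + 1, x, b => if b < D (par x) then anc par D m (par x) b else x

theorem anc_spec (par : V → V) (D : V → ℝ) (dd : V → V → ℝ) (h0 : ∀ x, dd x x = 0)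
    (htri : ∀ x y z, dd x z ≤ dd x y + dd y z) (n : V → ℕ)
    (hstep : ∀ x, 0 < n x → n (par x) + 1 = n x ∧ dd x (par x) ≤ D x - D (par x)) :
    ∀ m x b, n x = m → b < D x →
      b < D (anc par D m x b) ∧ dd x (anc par D m x b) ≤ D x - D (anc par D m x b) := by
  intro m
  induction m with
  | zero => intro x b _ hb; simp [anc, h0, hb]
  | succ m ih =>
    intro x b hm hb
    obtain ⟨h1, h2⟩ := hstep x (by omega)
    unfold anc
    split_ifs with h
    · obtain ⟨h3, h4⟩ := ih (par x) b (by omega) h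
      refine ⟨h3, ?_⟩
      linarith [htri x (par x) (anc par D m (par x) b)]
    · simp [h0, hb]

theorem fvs_embedding [Fintype V] [DecidableEq V] (G : SimpleGraph V)
    (l : V → V → ℝ) (hl : ∀ u v, G.Adj u v → 0 ≤ l u v)
    (hsymm : ∀ u v, G.Adj u v → l u v = l v u)
    (d : V → V → ℝ) (hd : ∀ u v, IsLeast {L | ∃ p : G.Walk u v, wlen l p = L} (d u v))
    (X : Finset V) (hX : X.Nonempty)
    (H : SimpleGraph V) (hHac : H.IsAcyclic) (hHG : ∀ u v, H.Adj u v → G.Adj u v)
    (hGH : ∀ u v, G.Adj u v → u ∉ X → v ∉ X → H.Adj u v) :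
    ∃ (ι : Type u) (_ : Fintype ι) (f : V → ι → ℝ), ∀ x y,
      d x y ≤ ∑ i, |f x i - f y i| ∧ ∑ i, |f x i - f y i| ≤ ((X.card : ℝ) + 6) * d x y := by
  classical
  have dle : ∀ {u v : V} (p : G.Walk u v), d u v ≤ wlen l p := fun {u v} p => (hd u v).2 ⟨p, rfl⟩
  have dwalk : ∀ u v, ∃ p : G.Walk u v, wlen l p = d u v := fun u v => (hd u v).1
  have wnn : ∀ {u v : V} (p : G.Walk u v), 0 ≤ wlen l p := fun {u v} p =>
    List.sum_nonneg fun t ht => by
      obtain ⟨e, _, rfl⟩ := List.mem_map.1 ht
      exact hl _ _ e.adj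
  have d0 : ∀ x, d x x = 0 := fun x => by
    refine le_antisymm ((dle SimpleGraph.Walk.nil).trans_eq (by simp [wlen])) ?_
    obtain ⟨p, hp⟩ := dwalk x x
    rw [← hp]
    exact wnn p
  have tri : ∀ x y z, d x z ≤ d x y + d y z := fun x y z => by
    obtain ⟨p, hp⟩ := dwalk x y
    obtain ⟨q, hq⟩ := dwalk y z
    refine (dle (p.append q)).trans_eq ?_
    rw [← hp, ← hq]
    simp [wlen]
  have dedge : ∀ u v, G.Adj u v → d u v ≤ l u v := fun u v h =>
    (dle h.toWalk).trans_eq (by simp [wlen])
  have dsym : ∀ x y, d x y = d y x := by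
    have rev : ∀ {u v : V} (p : G.Walk u v), d v u ≤ wlen l p := by
      intro u v p
      induction p with
      | nil => simp [d0, wlen]
      | @cons u w v h q ih =>
        have h1 : wlen l (SimpleGraph.Walk.cons h q) = l u w + wlen l q := by simp [wlen]
        rw [h1]
        have := tri v w u
        have := dedge w u h.symm
        rw [← hsymm u w h] at this
        linarith
    intro x y
    obtain ⟨p, hp⟩ := dwalk x y
    obtain ⟨q, hq⟩ := dwalk y x
    exact le_antisymm ((rev q).trans_eq hq) ((rev p).trans_eq hp)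
  obtain ⟨n, par, D, hpar, hedge⟩ := exists_rooting hHac l
  let r : V → ℝ := fun x => X.inf' hX fun v => d x v
  have rmin : ∀ x v, v ∈ X → r x ≤ d x v := fun x v hv => inf'_le _ hv
  have ratt : ∀ x, ∃ v ∈ X, r x = d x v := fun x => exists_mem_eq_inf' hX _
  have rnn : ∀ x, 0 ≤ r x := fun x => by
    obtain ⟨v, _, e⟩ := ratt x
    obtain ⟨p, hp⟩ := dwalk x v
    rw [e, ← hp]
    exact wnn p
  have rlip : ∀ x y, r x ≤ d x y + r y := fun x y => by
    obtain ⟨v, hv, e⟩ := ratt y
    rw [e]
    exact (rmin x v hv).trans (tri x y v)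
  let lo : V → ℝ := fun x => D x - r x
  let B : Finset ℝ := univ.image D ∪ univ.image lo
  have hDB : ∀ x, D x ∈ B := fun x => mem_union_left _ (mem_image_of_mem _ (mem_univ x))
  have hloB : ∀ x, lo x ∈ B := fun x => mem_union_right _ (mem_image_of_mem _ (mem_univ x))
  let a : V → ℝ → V := fun x b => anc par D (n x) x b
  have hstep : ∀ x, 0 < n x → n (par x) + 1 = n x ∧ d x (par x) ≤ D x - D (par x) := by
    intro x hx
    obtain ⟨h1, h2, h3⟩ := hpar x hx
    refine ⟨h2, ?_⟩
    rw [dsym]
    linarith [dedge _ _ (hHG _ _ h1)]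
  have ha : ∀ x b, b < D x → b < D (a x b) ∧ d x (a x b) ≤ D x - D (a x b) := fun x b hb =>
    anc_spec par D d d0 tri n hstep (n x) x b rfl hb
  have hpa : ∀ x b, 0 < n x → b < D (par x) → a x b = a (par x) b := by
    intro x b hx hb
    obtain ⟨m, hm⟩ : ∃ m, n x = m + 1 := ⟨n x - 1, by omega⟩
    have := (hpar x hx).2.1
    show anc par D (n x) x b = anc par D (n (par x)) (par x) b
    rw [hm, show n (par x) = m by omega]
    simp [anc, hb]
  let g : V → V × B → ℝ := fun x p =>
    if lo x ≤ p.2.1 ∧ p.2.1 < D x ∧ a x p.2.1 = p.1 then gap B p.2.1 else 0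
  let I : V → ℝ → ℝ := fun x b => if lo x ≤ b ∧ b < D x then 1 else 0
  let J : V → V → ℝ → ℝ := fun x y b =>
    if (lo x ≤ b ∧ b < D x) ∧ (lo y ≤ b ∧ b < D y) ∧ a x b = a y b then 1 else 0
  have col : ∀ x y, ∀ b : B, ∑ v, |g x (v, b) - g y (v, b)| =
      gap B b.1 * (I x b.1 + I y b.1 - 2 * J x y b.1) := by
    intro x y b
    have hg := gap_nonneg B b.1
    by_cases hx : lo x ≤ b.1 ∧ b.1 < D x <;> by_cases hy : lo y ≤ b.1 ∧ b.1 < D y
    · by_cases he : a x b.1 = a y b.1
      · rw [sum_eq_zero fun v _ => ?_]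
        · simp [I, J, hx, hy, he]
          norm_num
        · simp [g, hx.1, hx.2, hy.1, hy.2, he]
      · rw [← sum_subset (subset_univ {a x b.1, a y b.1}) fun v _ hv => ?_]
        · rw [sum_pair he]
          simp [g, I, J, hx.1, hx.2, hy.1, hy.2, he, Ne.symm he, abs_of_nonneg hg]
          ring
        · simp only [mem_insert, mem_singleton, not_or] at hv
          simp [g, Ne.symm hv.1, Ne.symm hv.2]
    · rw [sum_eq_single (a x b.1) (fun v _ hv => ?_) (by simp)]
      · rw [show g y (a x b.1, b) = 0 by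
          simp only [g]; rw [if_neg]; exact fun h => hy ⟨h.1, h.2.1⟩]
        simp [g, I, J, hx.1, hx.2, hy, abs_of_nonneg hg]
      · rw [show g y (v, b) = 0 by simp only [g]; rw [if_neg]; exact fun h => hy ⟨h.1, h.2.1⟩]
        simp [g, Ne.symm hv]
    · rw [sum_eq_single (a y b.1) (fun v _ hv => ?_) (by simp)]
      · rw [show g x (a y b.1, b) = 0 by
          simp only [g]; rw [if_neg]; exact fun h => hx ⟨h.1, h.2.1⟩]
        simp [g, I, J, hy.1, hy.2, hx, abs_of_nonneg hg]
      · rw [show g x (v, b) = 0 by simp only [g]; rw [if_neg]; exact fun h => hx ⟨h.1, h.2.1⟩]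
        simp [g, Ne.symm hv]
    · rw [sum_eq_zero fun v _ => ?_]
      · simp [I, J, hx, hy]
      · simp only [g]
        rw [if_neg, if_neg]
        · simp
        · exact fun h => hy ⟨h.1, h.2.1⟩
        · exact fun h => hx ⟨h.1, h.2.1⟩
  let Δ : V → V → ℝ := fun x y => ∑ p, |g x p - g y p|
  have sumI : ∀ x, ∑ b ∈ B, gap B b * I x b = r x := by
    intro x
    simp only [I, mul_ite, mul_one, mul_zero]
    rw [← sum_filter, sum_gap B (hloB x) (hDB x) (by simp only [lo]; linarith [rnn x])]
    simp [lo]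
  have hΔ : ∀ x y, Δ x y = r x + r y - 2 * ∑ b ∈ B, gap B b * J x y b := by
    intro x y
    simp only [Δ]
    rw [Fintype.sum_prod_type_right, sum_congr rfl fun b _ => col x y b,
      sum_coe_sort B (fun b => gap B b * (I x b + I y b - 2 * J x y b)), ← sumI x, ← sumI y,
      mul_sum, ← sum_add_distrib, ← sum_sub_distrib]
    exact sum_congr rfl fun b _ => by ring
  have Jnn : ∀ x y, 0 ≤ ∑ b ∈ B, gap B b * J x y b := fun x y =>
    sum_nonneg fun b _ => mul_nonneg (gap_nonneg B b) (by simp only [J]; split_ifs <;> norm_num)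
  have hlow : ∀ x y, d x y ≤ Δ x y ∨ Δ x y = r x + r y := by
    intro x y
    rw [hΔ]
    by_cases hS : (B.filter fun b =>
        (lo x ≤ b ∧ b < D x) ∧ (lo y ≤ b ∧ b < D y) ∧ a x b = a y b).Nonempty
    · left
      set b₀ := (B.filter fun b =>
        (lo x ≤ b ∧ b < D x) ∧ (lo y ≤ b ∧ b < D y) ∧ a x b = a y b).max' hS with hb₀
      have hm := mem_filter.1 (max'_mem _ hS)
      rw [← hb₀] at hm
      obtain ⟨-, ⟨hx1, hx2⟩, ⟨hy1, hy2⟩, he⟩ := hm
      obtain ⟨h1, h2⟩ := ha x b₀ hx2
      obtain ⟨-, h3⟩ := ha y b₀ hy2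
      rw [← he] at h3
      have hu : max (lo x) (lo y) ∈ B := by
        rcases max_choice (lo x) (lo y) with h | h <;> rw [h]
        exacts [hloB x, hloB y]
      have hsum : ∑ b ∈ B, gap B b * J x y b ≤ D (a x b₀) - max (lo x) (lo y) := by
        rw [← sum_gap B hu (hDB _) (le_of_lt (lt_of_le_of_lt (max_le hx1 hy1) h1))]
        simp only [J, mul_ite, mul_one, mul_zero]
        rw [← sum_filter]
        refine sum_le_sum_of_subset_of_nonneg (fun b hb => ?_) (fun b _ _ => gap_nonneg B b)
        have hle : b ≤ b₀ := le_max' _ b hb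
        rw [mem_filter] at hb ⊢
        exact ⟨hb.1, max_le hb.2.1.1 hb.2.2.1.1, lt_of_le_of_lt hle h1⟩
      have := le_max_left (lo x) (lo y)
      have := le_max_right (lo x) (lo y)
      have := tri x (a x b₀) y
      rw [dsym (a x b₀) y] at this
      simp only [lo] at *
      linarith
    · right
      rw [sum_eq_zero fun b hb => ?_]
      · ring
      · simp only [J, mul_ite, mul_one, mul_zero]
        rw [if_neg]
        exact fun h => hS ⟨b, mem_filter.2 ⟨hb, h⟩⟩
  have hX0 : ∀ x ∈ X, r x = 0 := fun x hx =>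
    le_antisymm ((rmin x x hx).trans_eq (d0 x)) (rnn x)
  have hup : ∀ u v, G.Adj u v → Δ u v ≤ 3 * l u v := by
    intro u v huv
    have hl0 := hl u v huv
    have r1 : r u ≤ l u v + r v := (rlip u v).trans (by linarith [dedge u v huv])
    have r2 : r v ≤ l u v + r u := (rlip v u).trans (by
      linarith [dedge v u huv.symm, hsymm u v huv])
    have base : Δ u v ≤ r u + r v := by rw [hΔ]; linarith [Jnn u v]
    by_cases hu : u ∈ X
    · linarith [hX0 u hu]
    by_cases hv : v ∈ X
    · linarith [hX0 v hv]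
    have child : ∀ p c, 0 < n c → par c = p → Δ c p ≤ 2 * (D c - D p) + |r c - r p| := by
      intro p c hc hp
      subst hp
      have hDc : D (par c) ≤ D c := by
        obtain ⟨h1, -, h3⟩ := hpar c hc
        linarith [hl _ _ (hHG _ _ h1)]
      by_cases hm : max (lo c) (lo (par c)) ≤ D (par c)
      · have hu : max (lo c) (lo (par c)) ∈ B := by
          rcases max_choice (lo c) (lo (par c)) with h | h <;> rw [h]
          exacts [hloB _, hloB _]
        have hJ : D (par c) - max (lo c) (lo (par c)) ≤ ∑ b ∈ B, gap B b * J c (par c) b := by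
          rw [← sum_gap B hu (hDB _) hm]
          simp only [J, mul_ite, mul_one, mul_zero]
          rw [← sum_filter]
          refine sum_le_sum_of_subset_of_nonneg (fun b hb => ?_) (fun b _ _ => gap_nonneg B b)
          rw [mem_filter] at hb ⊢
          exact ⟨hb.1, ⟨(le_max_left _ _).trans hb.2.1, lt_of_lt_of_le hb.2.2 hDc⟩,
            ⟨(le_max_right _ _).trans hb.2.1, hb.2.2⟩, hpa c b hc hb.2.2⟩
        rw [hΔ]
        rcases max_choice (lo c) (lo (par c)) with h | h <;> rw [h] at hJ <;>
          simp only [lo] at hJ <;>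
          linarith [le_abs_self (r c - r (par c)), neg_abs_le (r c - r (par c))]
      · rw [hΔ]
        have := Jnn c (par c)
        rcases max_choice (lo c) (lo (par c)) with h | h <;> rw [h] at hm <;>
          simp only [lo] at hm <;>
          linarith [le_abs_self (r c - r (par c)), neg_abs_le (r c - r (par c)), rnn c,
            rnn (par c), not_le.1 hm]
    rcases hedge u v (hGH u v huv hu hv) with ⟨hn, hp⟩ | ⟨hn, hp⟩
    · have := child u v hn hp
      have hD := (hpar v hn).2.2
      rw [hp] at hD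
      have : Δ u v = Δ v u := by simp only [Δ, abs_sub_comm]
      rcases abs_cases (r v - r u) with ⟨e, -⟩ | ⟨e, -⟩ <;> linarith
    · have := child v u hn hp
      have hD := (hpar u hn).2.2
      rw [hp, ← hsymm u v huv] at hD
      rcases abs_cases (r u - r v) with ⟨e, -⟩ | ⟨e, -⟩ <;> linarith
  have hΔd : ∀ x y, Δ x y ≤ 3 * d x y := by
    have walk : ∀ {x y : V} (p : G.Walk x y), Δ x y ≤ 3 * wlen l p := by
      intro x y p
      induction p with
      | nil => simp [Δ, wlen]
      | @cons u w v h q ih =>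
        have h1 : wlen l (SimpleGraph.Walk.cons h q) = l u w + wlen l q := by simp [wlen]
        have h2 : Δ u v ≤ Δ u w + Δ w v := by
          simp only [Δ, ← sum_add_distrib]
          exact sum_le_sum fun i _ => abs_sub_le _ _ _
        have := hup u w h
        rw [h1]
        linarith
    intro x y
    obtain ⟨p, hp⟩ := dwalk x y
    rw [← hp]
    exact walk p
  refine ⟨{v // v ∈ X} ⊕ (V × B), inferInstance,
    fun x => Sum.elim (fun v => d x v.1) (fun p => 2 * g x p), fun x y => ?_⟩
  rw [Fintype.sum_sum_type]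
  simp only [Sum.elim_inl, Sum.elim_inr, ← mul_sub, abs_mul, abs_two, ← mul_sum]
  rw [sum_coe_sort X (fun v => |d x v - d y v|)]
  change d x y ≤ _ + 2 * Δ x y ∧ _ + 2 * Δ x y ≤ _
  have hsumnn : 0 ≤ ∑ v ∈ X, |d x v - d y v| := sum_nonneg fun _ _ => abs_nonneg _
  have hΔnn : 0 ≤ Δ x y := sum_nonneg fun _ _ => abs_nonneg _
  constructor
  · rcases hlow x y with h | h
    · linarith
    · obtain ⟨v, hv, hrv⟩ := ratt x
      obtain ⟨w, hw, hrw⟩ := ratt y
      have h1 := single_le_sum (f := fun u => |d x u - d y u|) (fun _ _ => abs_nonneg _) hv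
      have h2 := tri x v y
      have h3 := neg_abs_le (d x v - d y v)
      rw [dsym v y] at h2
      linarith [rnn x, rnn y]
  · have h1 : ∑ v ∈ X, |d x v - d y v| ≤ (X.card : ℝ) * d x y := by
      refine (sum_le_card_nsmul X _ (d x y) fun v _ => ?_).trans_eq (nsmul_eq_mul _ _)
      rw [abs_sub_le_iff]
      constructor
      · linarith [tri x y v]
      · linarith [tri y x v, dsym x y]
    linarith [hΔd x y]

end Vale.Agent.P235
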