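import Mathlib

/-!
Weights of the gaps of a finite set of reals.
-/

namespace Vale.Agent.P235

open Finset

/-- Distance from `b` to the next element of `B`. -/
noncomputable def gap (B : Finset ℝ) (b : ℝ) : ℝ :=
  if h : (B.filter fun c => b < c).Nonempty then (B.filter fun c => b < c).min' h - b else 0

theorem gap_nonneg (B : Finset ℝ) (b : ℝ) : 0 ≤ gap B b := by
  unfold gap
  split_ifs with h
  · have := (mem_filter.1 ((B.filter fun c => b < c).min'_mem h)).2
    linarith
  · exact le_rfl

theorem sum_gap (B : Finset ℝ) {u v : ℝ} (hu : u ∈ B) (hv : v ∈ B) (huv : u ≤ v) :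
    ∑ b ∈ B.filter (fun b => u ≤ b ∧ b < v), gap B b = v - u := by
  suffices H : ∀ n, ∀ v ∈ B, u ≤ v → (B.filter fun b => u ≤ b ∧ b < v).card = n →
      ∑ b ∈ B.filter (fun b => u ≤ b ∧ b < v), gap B b = v - u from H _ v hv huv rfl
  intro n
  induction n with
  | zero =>
    intro v _ huv hc
    rw [card_eq_zero] at hc
    rw [hc, sum_empty]
    rcases huv.eq_or_lt with h | h
    · linarith
    · have : u ∈ B.filter fun b => u ≤ b ∧ b < v := mem_filter.2 ⟨hu, le_rfl, h⟩
      rw [hc] at this
      exact absurd this (notMem_empty u)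
  | succ n ih =>
    intro v hv huv hc
    have hne : (B.filter fun b => u ≤ b ∧ b < v).Nonempty := card_pos.1 (by omega)
    set p := (B.filter fun b => u ≤ b ∧ b < v).max' hne with hp
    have hpm := mem_filter.1 ((B.filter fun b => u ≤ b ∧ b < v).max'_mem hne)
    rw [← hp] at hpm
    have hle : ∀ b ∈ B.filter (fun b => u ≤ b ∧ b < v), b ≤ p := fun b hb => le_max' _ b hb
    have hsplit : B.filter (fun b => u ≤ b ∧ b < v) =
        insert p (B.filter fun b => u ≤ b ∧ b < p) := by
      ext b
      rw [mem_insert, mem_filter, mem_filter]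
      constructor
      · rintro ⟨h1, h2, h3⟩
        rcases (hle b (mem_filter.2 ⟨h1, h2, h3⟩)).eq_or_lt with h | h
        · exact Or.inl h
        · exact Or.inr ⟨h1, h2, h⟩
      · rintro (rfl | ⟨h1, h2, h3⟩)
        · exact hpm
        · exact ⟨h1, h2, h3.trans hpm.2.2⟩
    have hnot : p ∉ B.filter fun b => u ≤ b ∧ b < p := fun h => lt_irrefl p (mem_filter.1 h).2.2
    have hgap : gap B p = v - p := by
      have hne' : (B.filter fun c => p < c).Nonempty := ⟨v, mem_filter.2 ⟨hv, hpm.2.2⟩⟩
      rw [gap, dif_pos hne']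
      suffices (B.filter fun c => p < c).min' hne' = v by rw [this]
      refine le_antisymm (min'_le _ _ (mem_filter.2 ⟨hv, hpm.2.2⟩)) (le_min' _ _ _ fun c hc => ?_)
      by_contra hlt
      push Not at hlt
      rw [mem_filter] at hc
      have := hle c (mem_filter.2 ⟨hc.1, hpm.2.1.trans hc.2.le, hlt⟩)
      linarith [hc.2]
    rw [hsplit, card_insert_of_notMem hnot] at hc
    rw [hsplit, sum_insert hnot, hgap, ih p hpm.1 hpm.2.1 (by omega)]
    ring

end Vale.Agent.P235
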