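import Vale.Agent.P235.Levels

/-!
Truncating an l1 metric at a varying scale: random cuts at a fixed scale, glued over dyadic
scales.
-/

namespace Vale.Agent.P235

open Finset

universe u

variable {V : Type u}

theorem one_sub_exp_ge {t : ℝ} (ht : 0 ≤ t) : min t 1 / 2 ≤ 1 - Real.exp (-t) := by
  have h1 : Real.exp (-t) ≤ 1 / (1 + t) := by
    rw [Real.exp_neg, one_div]
    exact inv_anti₀ (by linarith) (by linarith [Real.add_one_le_exp t])
  have h2 : min t 1 / 2 ≤ 1 - 1 / (1 + t) := by
    rw [one_sub_div (by linarith), add_sub_cancel_left, div_le_div_iff₀ two_pos (by linarith)]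
    rcases le_total t 1 with h | h
    · rw [min_eq_left h]; nlinarith
    · rw [min_eq_right h]; nlinarith
  linarith

/-- An l1 metric truncated at scale `s`. -/
theorem exists_truncation [Fintype V] {ι : Type u} [Fintype ι] (F : V → ι → ℝ) {s : ℝ}
    (hs : 0 < s) :
    ∃ (κ : Type u) (_ : Fintype κ) (T : V → κ → ℝ), (∀ x, ∑ k, |T x k| = 1) ∧
      ∀ x y, ∑ k, |T x k - T y k| = 2 * (1 - Real.exp (-((∑ i, |F x i - F y i|) / s))) := by
  classical
  set B : Finset ℝ := univ.image fun q : V × ι => F q.1 q.2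
  have hB : ∀ x i, F x i ∈ B := fun x i => mem_image.2 ⟨(x, i), mem_univ _, rfl⟩
  let chi : V → ι × ULift.{u} B → Prop := fun x c => c.2.down.1 < F x c.1
  let w : ι × ULift.{u} B → ℝ := fun c => gap B c.2.down.1
  have hsum : ∀ x y, ∑ c with ¬(chi x c ↔ chi y c), w c = ∑ i, |F x i - F y i| := by
    intro x y
    rw [sum_filter, Fintype.sum_prod_type]
    refine sum_congr rfl fun i _ => ?_
    simp only [chi, w]
    refine ((Fintype.sum_equiv Equiv.ulift _ (fun b : B => if ¬(b.1 < F x i ↔ b.1 < F y i) then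
        gap B b.1 else 0) fun _ => rfl).trans (sum_coe_sort B (fun b =>
        if ¬(b < F x i ↔ b < F y i) then gap B b else 0))).trans ?_
    rw [← sum_filter]
    rcases le_total (F x i) (F y i) with h | h
    · rw [abs_sub_comm, abs_of_nonneg (sub_nonneg.2 h), ← sum_gap B (hB x i) (hB y i) h]
      refine sum_congr (filter_congr fun b _ => ?_) fun _ _ => rfl
      constructor
      · intro hh
        by_cases hb : b < F x i
        · exact absurd (iff_of_true hb (hb.trans_le h)) hh
        · exact ⟨not_lt.1 hb, by by_contra hb'; exact hh (iff_of_false hb hb')⟩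
      · rintro ⟨h1, h2⟩ hh
        exact absurd (hh.2 h2) (not_lt.2 h1)
    · rw [abs_of_nonneg (sub_nonneg.2 h), ← sum_gap B (hB y i) (hB x i) h]
      refine sum_congr (filter_congr fun b _ => ?_) fun _ _ => rfl
      constructor
      · intro hh
        by_cases hb : b < F y i
        · exact absurd (iff_of_true (hb.trans_le h) hb) hh
        · exact ⟨not_lt.1 hb, by by_contra hb'; exact hh (iff_of_false hb' hb)⟩
      · rintro ⟨h1, h2⟩ hh
        exact absurd (hh.1 h2) (not_lt.2 h1)
  let q : ι × ULift.{u} B → ℝ := fun c => Real.exp (-(w c / s))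
  have hq : ∀ c, q c ≤ 1 := fun c => Real.exp_le_one_iff.2 (by
    have : 0 ≤ w c / s := div_nonneg (gap_nonneg _ _) hs.le
    linarith)
  let Pr : Finset (ι × ULift.{u} B) → ℝ := fun S => (∏ c ∈ S, (1 - q c)) * ∏ c ∈ univ \ S, q c
  have hPr : ∀ S, 0 ≤ Pr S := fun S => mul_nonneg
    (prod_nonneg fun c _ => sub_nonneg.2 (hq c)) (prod_nonneg fun c _ => (Real.exp_pos _).le)
  let sig : V → Finset (ι × ULift.{u} B) → Finset (ι × ULift.{u} B) := fun x S =>
    S.filter fun c => chi x c
  have htot : ∑ S, Pr S = 1 := by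
    rw [← powerset_univ, ← prod_add]
    exact prod_eq_one fun c _ => by ring
  refine ⟨Finset (ι × ULift.{u} B) × Finset (ι × ULift.{u} B), inferInstance,
    fun x k => if k.2 = sig x k.1 then Pr k.1 else 0, fun x => ?_, fun x y => ?_⟩
  · rw [Fintype.sum_prod_type]
    refine Eq.trans (sum_congr rfl fun S _ => ?_) htot
    simp [apply_ite abs, abs_of_nonneg (hPr S)]
  · rw [Fintype.sum_prod_type]
    have h1 : ∀ S, ∑ Q, |(if Q = sig x S then Pr S else 0) - (if Q = sig y S then Pr S else 0)| =
        2 * (Pr S - if sig x S = sig y S then Pr S else 0) := by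
      intro S
      by_cases he : sig x S = sig y S
      · simp [he]
      · rw [if_neg he, sub_zero, ← sum_subset (subset_univ {sig x S, sig y S}) fun Q _ hQ => ?_]
        · rw [sum_pair he]
          simp [he, Ne.symm he, abs_of_nonneg (hPr S)]
          ring
        · simp only [mem_insert, mem_singleton, not_or] at hQ
          simp [hQ.1, hQ.2]
    rw [sum_congr rfl fun S _ => h1 S, ← mul_sum, sum_sub_distrib, htot]
    congr 2
    let p' : ι × ULift.{u} B → ℝ := fun c => if ¬(chi x c ↔ chi y c) then 0 else 1 - q c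
    have h2 : ∀ S, (if sig x S = sig y S then Pr S else 0) =
        (∏ c ∈ S, p' c) * ∏ c ∈ univ \ S, q c := by
      intro S
      split_ifs with he
      · simp only [Pr]
        congr 1
        refine prod_congr rfl fun c hc => ?_
        have := Finset.ext_iff.1 he c
        simp only [sig, mem_filter, hc, true_and] at this
        simp [p', this]
      · rw [prod_eq_zero_iff.2 ?_, zero_mul]
        by_contra hcon
        refine he (filter_congr fun c hc => ?_)
        by_contra hne
        exact hcon ⟨c, hc, by simp [p', hne]⟩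
    rw [sum_congr rfl fun S _ => h2 S, ← powerset_univ, ← prod_add]
    have h3 : ∀ c, p' c + q c = if ¬(chi x c ↔ chi y c) then q c else 1 := fun c => by
      simp only [p']; split_ifs <;> ring
    rw [prod_congr rfl fun c _ => h3 c, ← prod_filter, ← Real.exp_sum]
    congr 1
    rw [← hsum x y, sum_div, ← sum_neg_distrib]

/-- The tent at scale `s`. -/
noncomputable def tent (s r : ℝ) : ℝ := max 0 (min (r - s / 2) (2 * s - r))

theorem tent_nonneg (s r : ℝ) : 0 ≤ tent s r := le_max_left _ _

theorem abs_tent_sub_le (s r r' : ℝ) : |tent s r - tent s r'| ≤ |r - r'| := by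
  refine (abs_max_sub_max_le_max _ _ _ _).trans (max_le (by simp) ?_)
  refine (abs_min_sub_min_le_max _ _ _ _).trans (max_le ?_ ?_)
  · rw [sub_sub_sub_cancel_right]
  · rw [show 2 * s - r - (2 * s - r') = -(r - r') by ring, abs_neg]

theorem tent_pos_imp {s r : ℝ} (h : tent s r ≠ 0) : s / 2 < r ∧ r < 2 * s := by
  have h1 : 0 < min (r - s / 2) (2 * s - r) := by
    by_contra hc
    exact h (max_eq_left (not_lt.1 hc))
  exact ⟨by linarith [min_le_left (r - s / 2) (2 * s - r)],
    by linarith [min_le_right (r - s / 2) (2 * s - r)]⟩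

/-- The truncations glued over all scales. -/
theorem exists_scales [Fintype V] {ι : Type u} [Fintype ι] (F : V → ι → ℝ) (r : V → ℝ)
    (hr : ∀ x, 0 ≤ r x) :
    ∃ (κ : Type u) (_ : Fintype κ) (g : V → κ → ℝ), ∀ x y,
      min (∑ i, |F x i - F y i|) (r x) ≤ 12 * ∑ k, |g x k - g y k| ∧
      ∑ k, |g x k - g y k| ≤ 4 * (|r x - r y| + 2 * ∑ i, |F x i - F y i|) ∧
      (r y = 0 → ∑ k, |g x k - g y k| ≤ 4 * |r x - r y|) := by
  classical
  have hex : ∀ t : ℝ, ∃ j : ℤ, 0 < t → (2 : ℝ) ^ j ≤ t * (4 / 3) ∧ t * (4 / 3) < (2 : ℝ) ^ (j + 1) :=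
    fun t => by
    by_cases ht : 0 < t
    · obtain ⟨j, hj1, hj2⟩ := exists_mem_Ico_zpow (mul_pos ht (by norm_num : (0 : ℝ) < 4 / 3))
        (one_lt_two : (1 : ℝ) < 2)
      exact ⟨j, fun _ => ⟨hj1, hj2⟩⟩
    · exact ⟨0, fun h => absurd h ht⟩
  choose scale hscale using hex
  set J : Finset ℤ := univ.image fun x => scale (r x) with hJ
  have hspos : ∀ j : ℤ, (0 : ℝ) < (2 : ℝ) ^ j := fun j => zpow_pos two_pos j
  choose κ hκ T hT1 hT2 using fun j : ULift.{u} J => exists_truncation F (hspos j.down.1)
  refine ⟨Σ j : ULift.{u} J, κ j, inferInstance,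
    fun x k => tent ((2 : ℝ) ^ k.1.down.1) (r x) * T k.1 x k.2, fun x y => ?_⟩
  set D := ∑ i, |F x i - F y i| with hDdef
  have hD : 0 ≤ D := sum_nonneg fun _ _ => abs_nonneg _
  let S : ULift.{u} J → ℝ := fun j =>
    ∑ k, |tent ((2 : ℝ) ^ j.down.1) (r x) * T j x k - tent ((2 : ℝ) ^ j.down.1) (r y) * T j y k|
  rw [Fintype.sum_sigma (f := fun k : Σ j : ULift.{u} J, κ j =>
    |tent ((2 : ℝ) ^ k.1.down.1) (r x) * T k.1 x k.2 -
      tent ((2 : ℝ) ^ k.1.down.1) (r y) * T k.1 y k.2|)]
  change _ ≤ 12 * ∑ j, S j ∧ ∑ j, S j ≤ _ ∧ (_ → ∑ j, S j ≤ _)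
  have hS0 : ∀ j, 0 ≤ S j := fun j => sum_nonneg fun _ _ => abs_nonneg _
  have hup : ∀ j, S j ≤ |r x - r y| +
      tent ((2 : ℝ) ^ j.down.1) (r y) * ∑ k, |T j x k - T j y k| := by
    intro j
    calc S j ≤ ∑ k, (|tent ((2 : ℝ) ^ j.down.1) (r x) - tent ((2 : ℝ) ^ j.down.1) (r y)| * |T j x k| +
          tent ((2 : ℝ) ^ j.down.1) (r y) * |T j x k - T j y k|) := sum_le_sum fun k _ => by
          rw [← abs_mul, ← abs_of_nonneg (tent_nonneg ((2 : ℝ) ^ j.down.1) (r y)), ← abs_mul,
            abs_of_nonneg (tent_nonneg ((2 : ℝ) ^ j.down.1) (r y))]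
          refine le_trans (le_of_eq ?_) (abs_add_le _ _)
          congr 1
          ring
      _ ≤ _ := by
          rw [sum_add_distrib, ← mul_sum, ← mul_sum, hT1, mul_one]
          linarith [abs_tent_sub_le ((2 : ℝ) ^ j.down.1) (r x) (r y)]
  have hT : ∀ j : ULift.{u} J, ∑ k, |T j x k - T j y k| ≤ 2 * (D / (2 : ℝ) ^ j.down.1) := fun j => by
    rw [hT2, ← hDdef]
    linarith [Real.add_one_le_exp (-(D / (2 : ℝ) ^ j.down.1))]
  let act : V → Finset (ULift.{u} J) := fun z =>
    univ.filter fun j => tent ((2 : ℝ) ^ j.down.1) (r z) ≠ 0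
  have hcard : ∀ z, (act z).card ≤ 2 := by
    intro z
    by_contra hlt
    push Not at hlt
    have hclose : ∀ a ∈ act z, ∀ b ∈ act z, a.down.1 ≤ b.down.1 + 1 := by
      intro a ha b hb
      obtain ⟨h1, -⟩ := tent_pos_imp (mem_filter.1 ha).2
      obtain ⟨-, h2⟩ := tent_pos_imp (mem_filter.1 hb).2
      have h3 : (2 : ℝ) ^ a.down.1 < (2 : ℝ) ^ (b.down.1 + 2) := by
        rw [zpow_add₀ two_ne_zero]; norm_num; linarith
      have := (zpow_lt_zpow_iff_right₀ one_lt_two).1 h3
      omega
    obtain ⟨a, ha, b, hb, c, hc, hab, hac, hbc⟩ := two_lt_card.1 hlt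
    have := hclose a ha b hb; have := hclose b hb a ha
    have := hclose a ha c hc; have := hclose c hc a ha
    have := hclose b hb c hc; have := hclose c hc b hb
    have inj : ∀ p q : ULift.{u} J, p.down.1 = q.down.1 → p = q := fun p q h =>
      ULift.ext _ _ (Subtype.ext h)
    have : a.down.1 ≠ b.down.1 := fun h => hab (inj _ _ h)
    have : a.down.1 ≠ c.down.1 := fun h => hac (inj _ _ h)
    have : b.down.1 ≠ c.down.1 := fun h => hbc (inj _ _ h)
    omega
  have hsupp : ∀ j, j ∉ act x ∪ act y → S j = 0 := by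
    intro j hj
    simp only [act, mem_union, mem_filter, mem_univ, true_and, not_or, not_not] at hj
    simp [S, hj.1, hj.2]
  have htotal : ∀ b : ℝ, 0 ≤ b → (∀ j, S j ≤ b) → ∑ j, S j ≤ 4 * b := by
    intro b hb h
    rw [← sum_subset (subset_univ (act x ∪ act y)) fun j _ hj => hsupp j hj]
    refine (sum_le_card_nsmul _ _ b fun j _ => h j).trans ?_
    rw [nsmul_eq_mul]
    refine mul_le_mul_of_nonneg_right ?_ hb
    have h4 : (act x ∪ act y).card ≤ 4 :=
      (card_union_le _ _).trans (by linarith [hcard x, hcard y])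
    exact_mod_cast h4
  refine ⟨?_, htotal _ (by positivity) fun j => (hup j).trans ?_, fun hy => ?_⟩
  · rcases (hr x).eq_or_lt with h0 | h0
    · rw [← h0]
      exact (min_le_right _ _).trans (mul_nonneg (by norm_num) (sum_nonneg fun j _ => hS0 j))
    · obtain ⟨hj1, hj2⟩ := hscale _ h0
      rw [zpow_add₀ two_ne_zero, zpow_one] at hj2
      let j : ULift.{u} J := ⟨⟨scale (r x), mem_image_of_mem _ (mem_univ x)⟩⟩
      set s := (2 : ℝ) ^ scale (r x)
      have hs : 0 < s := hspos _
      set a := tent s (r x)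
      set b := tent s (r y)
      have ha : s / 4 ≤ a := le_max_of_le_right (le_min (by linarith) (by linarith))
      have hlo : a * ∑ k, |T j x k - T j y k| ≤ 2 * S j := by
        have e1 : a * ∑ k, |T j x k - T j y k| ≤ S j + |a - b| := by
          calc a * ∑ k, |T j x k - T j y k|
              ≤ ∑ k, (|a * T j x k - b * T j y k| + |a - b| * |T j y k|) := by
                rw [mul_sum]
                refine sum_le_sum fun k _ => ?_
                have e : a * |T j x k - T j y k| =
                    |(a * T j x k - b * T j y k) - (a - b) * T j y k| := by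
                  rw [show (a * T j x k - b * T j y k) - (a - b) * T j y k =
                      a * (T j x k - T j y k) by ring, abs_mul,
                    abs_of_nonneg (show 0 ≤ a from tent_nonneg _ _)]
                rw [e, ← abs_mul]
                exact abs_sub _ _
            _ = _ := by rw [sum_add_distrib, ← mul_sum, hT1, mul_one]
        have e2 : |a - b| ≤ S j := by
          have h1 : ∑ k, |a * T j x k| = a := by
            simp only [abs_mul, ← mul_sum, hT1, mul_one]
            exact abs_of_nonneg (tent_nonneg _ _)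
          have h2 : ∑ k, |b * T j y k| = b := by
            simp only [abs_mul, ← mul_sum, hT1, mul_one]
            exact abs_of_nonneg (tent_nonneg _ _)
          rw [← h1, ← h2, ← sum_sub_distrib]
          exact (abs_sum_le_sum_abs _ _).trans (sum_le_sum fun k _ => abs_abs_sub_abs_le_abs_sub _ _)
        linarith
      rw [hT2, ← hDdef] at hlo
      have h5 := one_sub_exp_ge (div_nonneg hD hs.le)
      have h6 : min D s / 8 ≤ a * (1 - Real.exp (-(D / s))) := by
        have h7 : 0 ≤ min (D / s) 1 / 2 := by positivity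
        refine le_trans (le_of_eq ?_) (mul_le_mul ha h5 h7 (tent_nonneg _ _))
        rcases le_total D s with h | h
        · rw [min_eq_left h, min_eq_left ((div_le_one hs).2 h)]; field_simp; ring
        · rw [min_eq_right h, min_eq_right ((one_le_div hs).2 h)]; ring
      have h8 : S j ≤ ∑ i, S i := single_le_sum (fun i _ => hS0 i) (mem_univ j)
      rcases min_choice D s with h | h <;> rw [h] at h6
      · exact (min_le_left _ _).trans (by linarith [mul_comm a (1 - Real.exp (-(D / s)))])
      · exact (min_le_right _ _).trans (by linarith)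
  · have h9 : tent ((2 : ℝ) ^ j.down.1) (r y) ≤ (2 : ℝ) ^ j.down.1 :=
      max_le (hspos _).le (by
        linarith [hspos j.down.1,
          min_le_left (r y - (2 : ℝ) ^ j.down.1 / 2) (2 * (2 : ℝ) ^ j.down.1 - r y),
          min_le_right (r y - (2 : ℝ) ^ j.down.1 / 2) (2 * (2 : ℝ) ^ j.down.1 - r y)])
    have h10 := mul_le_mul h9 (hT j) (sum_nonneg fun _ _ => abs_nonneg _) (hspos _).le
    rw [mul_left_comm, mul_div_cancel₀ _ (hspos _).ne'] at h10
    linarith
  · refine htotal _ (abs_nonneg _) fun j => (hup j).trans (le_of_eq ?_)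
    have : tent ((2 : ℝ) ^ j.down.1) (r y) = 0 := by
      rw [hy]
      exact max_eq_left ((min_le_left _ _).trans (by linarith [hspos j.down.1]))
    rw [this, zero_mul, add_zero]

end Vale.Agent.P235
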